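import Vale.Agent.P093.BUc

/-! P093 BUa. The Borsuk-Ulam theorem for products of spheres, block form, preparation. -/

open Filter Topology Set

noncomputable section

namespace Vale.Agent.P093

/-- Reflection of the block `a`. -/
def flp {A : Type} [DecidableEq A] {n : ℕ} (fac : Fin n → A) (a : A) (x : Fin n ⊕ A → ℝ) :
    Fin n ⊕ A → ℝ := fun i => if Sum.elim fac id i = a then -x i else x i

section

open Vale.Agent.P209.C

variable {A : Type} [DecidableEq A] {n : ℕ} (fac : Fin n → A)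

/-- No block vanishes. -/
def bubNZ (x : Fin n ⊕ A → ℝ) : Prop := ∀ a, ∃ i, Sum.elim fac id i = a ∧ x i ≠ 0

/-- Moving the block of `k` towards the basis vector `k`. -/
def bubMv (k : Fin n) (τ : ℝ) (x : Fin n ⊕ A → ℝ) : Fin n ⊕ A → ℝ := fun i =>
  if Sum.elim fac id i = fac k then (1 - τ) * x i + τ * (if i = .inl k then 1 else 0) else x i

/-- The product of the spheres. -/
def bubK [Fintype A] : Set (Fin n ⊕ A → ℝ) :=
  {x | ∀ a, ∑ i, (if Sum.elim fac id i = a then |x i| else 0) = 1}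

variable {fac}

theorem bub_flp (a : A) (x : Fin n ⊕ A → ℝ) : flp fac a (flp fac a x) = x := by
  funext i
  simp only [flp]
  split_ifs <;> simp

theorem bub_abs (a : A) (x : Fin n ⊕ A → ℝ) (i) : |flp fac a x i| = |x i| := by
  simp only [flp]
  split_ifs <;> simp

theorem bub_nz {x : Fin n ⊕ A → ℝ} (a : A) : bubNZ fac (flp fac a x) ↔ bubNZ fac x := by
  simp only [bubNZ, ← abs_ne_zero (a := flp fac a x _), bub_abs, abs_ne_zero]

theorem bub_comm (a b : A) (x : Fin n ⊕ A → ℝ) :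
    flp fac a (flp fac b x) = flp fac b (flp fac a x) := by
  funext i
  simp only [flp]
  split_ifs <;> simp

theorem bub_mv {a : A} {k : Fin n} (h : a ≠ fac k) (τ : ℝ) (x : Fin n ⊕ A → ℝ) :
    flp fac a (bubMv fac k τ x) = bubMv fac k τ (flp fac a x) := by
  funext i
  simp only [flp, bubMv]
  by_cases h1 : Sum.elim fac id i = a
  · have h2 : Sum.elim fac id i ≠ fac k := fun h2 => h (h1.symm.trans h2)
    simp only [if_pos h1, if_neg h2]
  · simp only [if_neg h1]

/-- Reflection on the subtype. -/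
def bubT (a : A) (x : {x // bubNZ fac x}) : {x // bubNZ fac x} := ⟨flp fac a x.1, (bub_nz a).2 x.2⟩

open Classical in
/-- The move on the subtype. -/
def bubF (k : Fin n) (τ : ℝ) (x : {x // bubNZ fac x}) : {x // bubNZ fac x} :=
  if h : bubNZ fac (bubMv fac k τ x.1) then ⟨_, h⟩ else x

theorem bubF_zero (k : Fin n) (x : {x // bubNZ fac x}) : bubF k 0 x = x := by
  have e : bubMv fac k 0 x.1 = x.1 := by
    funext i
    simp [bubMv]
  unfold bubF
  split_ifs
  · exact Subtype.ext e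
  · rfl

theorem bubF_one (k : Fin n) (x : {x // bubNZ fac x}) :
    bubF k 1 (bubT (fac k) x) = bubF k 1 x := by
  have e : bubMv fac k 1 (bubT (fac k) x).1 = bubMv fac k 1 x.1 := by
    funext i
    simp only [bubMv, bubT, flp]
    split_ifs <;> simp
  have h : bubNZ fac (bubMv fac k 1 x.1) := fun a => by
    by_cases ha : a = fac k
    · exact ⟨.inl k, ha.symm, by simp [bubMv]⟩
    · obtain ⟨i, hi, h0⟩ := x.2 a
      exact ⟨i, hi, by rwa [bubMv, if_neg (hi ▸ ha)]⟩
  unfold bubF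
  rw [dif_pos h, dif_pos (e ▸ h)]
  exact Subtype.ext e

theorem bubT_F {a : A} {k : Fin n} (h : a ≠ fac k) (τ : ℝ) (x : {x // bubNZ fac x}) :
    bubT a (bubF k τ x) = bubF k τ (bubT a x) := by
  have e : bubMv fac k τ (bubT a x).1 = flp fac a (bubMv fac k τ x.1) := (bub_mv h τ x.1).symm
  unfold bubF
  by_cases h1 : bubNZ fac (bubMv fac k τ x.1)
  · rw [dif_pos h1, dif_pos (e ▸ (bub_nz a).2 h1)]
    exact Subtype.ext e.symm
  · rw [dif_neg h1, dif_neg fun h2 => h1 ((bub_nz a).1 (e ▸ h2))]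

theorem bub_sign [Fintype A] (χ : A → ZMod 2) : ∃ c : {x // bubNZ fac x} → ZMod 2,
    ∀ a x, c (bubT a x) = c x + χ a := by
  obtain ⟨s, hs⟩ := bu_sign (X := Fin n ⊕ A → ℝ)
  let res : A → (Fin n ⊕ A → ℝ) → Fin n ⊕ A → ℝ := fun a x i =>
    if Sum.elim fac id i = a then x i else 0
  refine ⟨fun x => ∑ b, χ b * s (res b x.1), fun a x => ?_⟩
  have key : ∀ b, s (res b (bubT a x).1) = s (res b x.1) + if b = a then 1 else 0 := by
    intro b
    by_cases hb : b = a
    · subst hb
      have e : res b (bubT b x).1 = -res b x.1 := by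
        funext i
        simp only [res, bubT, flp, Pi.neg_apply]
        split_ifs <;> simp
      rw [e, if_pos rfl]
      refine hs _ fun h => ?_
      obtain ⟨i, hi, h0⟩ := x.2 b
      have h1 := congrFun h i
      simp only [res, Pi.neg_apply, if_pos hi] at h1
      exact h0 (by linarith)
    · have e : res b (bubT a x).1 = res b x.1 := by
        funext i
        simp only [res, bubT, flp]
        by_cases h1 : Sum.elim fac id i = b
        · rw [if_pos h1, if_pos h1, if_neg fun h2 => hb (h1.symm.trans h2)]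
        · rw [if_neg h1, if_neg h1]
      rw [e, if_neg hb, add_zero]
  simp only [key, mul_add, Finset.sum_add_distrib, mul_ite, mul_one, mul_zero, Finset.sum_ite_eq',
    Finset.mem_univ, if_true]

variable [Fintype A]

theorem bubK_le {x : Fin n ⊕ A → ℝ} (hx : x ∈ bubK fac) (i) : |x i| ≤ 1 := by
  rw [← hx (Sum.elim fac id i)]
  refine le_of_eq_of_le ?_ (Finset.single_le_sum (f := fun j =>
    if Sum.elim fac id j = Sum.elim fac id i then |x j| else 0) (fun j _ => ?_) (Finset.mem_univ i))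
  · rw [if_pos rfl]
  · split_ifs <;> simp

theorem bubK_nz {x : Fin n ⊕ A → ℝ} (hx : x ∈ bubK fac) : bubNZ fac x := by
  intro a
  by_contra h
  push Not at h
  refine zero_ne_one ((Finset.sum_eq_zero fun i _ => ?_).symm.trans (hx a))
  split_ifs with hi
  · rw [h i hi, abs_zero]
  · rfl

theorem bubK_compact : IsCompact (bubK fac) := by
  refine (isCompact_closedBall 0 1).of_isClosed_subset ?_ fun x hx =>
    mem_closedBall_zero_iff.2 ((pi_norm_le_iff_of_nonneg zero_le_one).2 (bubK_le hx))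
  simp only [bubK, ofPred_forall]
  refine isClosed_iInter fun a => isClosed_eq (continuous_finsetSum _ fun i _ => ?_)
    continuous_const
  split_ifs <;> fun_prop

theorem bubK_mv {x : Fin n ⊕ A → ℝ} (hx : x ∈ bubK fac) {k : Fin n} (h0 : x (.inl k) = 0) {τ : ℝ}
    (h1 : 0 ≤ τ) (h2 : τ ≤ 1) : bubMv fac k τ x ∈ bubK fac := by
  intro a
  by_cases ha : a = fac k
  · subst ha
    have key : ∀ i, (if Sum.elim fac id i = fac k then |bubMv fac k τ x i| else 0) =
        (1 - τ) * (if Sum.elim fac id i = fac k then |x i| else 0) +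
          if i = .inl k then τ else 0 := by
      intro i
      by_cases hi : i = .inl k
      · subst hi
        simp [bubMv, h0, abs_of_nonneg h1]
      · simp only [bubMv, if_neg hi, mul_zero, add_zero]
        split_ifs
        · rw [abs_mul, abs_of_nonneg (by linarith)]
        · simp
    simp only [key, Finset.sum_add_distrib, ← Finset.mul_sum, hx (fac k), Finset.sum_ite_eq',
      Finset.mem_univ, if_true]
    ring
  · refine (Finset.sum_congr rfl fun i _ => ?_).trans (hx a)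
    by_cases hi : Sum.elim fac id i = a
    · rw [if_pos hi, if_pos hi, bubMv, if_neg (hi ▸ ha)]
    · rw [if_neg hi, if_neg hi]

theorem bub_dist {x y : Fin n ⊕ A → ℝ} (hy : y ∈ bubK fac) (k : Fin n) {τ τ' η : ℝ}
    (h1 : 0 ≤ τ) (h2 : τ ≤ 1) (h3 : |τ - τ'| ≤ η) :
    ‖bubMv fac k τ x - bubMv fac k τ' y‖ ≤ ‖x - y‖ + η * 2 := by
  have η0 : 0 ≤ η := (abs_nonneg _).trans h3
  refine (pi_norm_le_iff_of_nonneg (by positivity)).2 fun i => ?_
  have h4 : |x i - y i| ≤ ‖x - y‖ := norm_le_pi_norm (x - y) i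
  simp only [Pi.sub_apply, bubMv, Real.norm_eq_abs]
  by_cases hi : Sum.elim fac id i = fac k
  · rw [if_pos hi, if_pos hi]
    generalize hc : (if i = Sum.inl k then (1 : ℝ) else 0) = c
    have c1 : |c| ≤ 1 := by
      rw [← hc]
      split_ifs <;> simp
    rw [show (1 - τ) * x i + τ * c - ((1 - τ') * y i + τ' * c) =
      (1 - τ) * (x i - y i) + (τ - τ') * (c - y i) by ring]
    refine (abs_add_le _ _).trans (add_le_add ?_ ?_)
    · rw [abs_mul, abs_of_nonneg (by linarith)]
      nlinarith [abs_nonneg (x i - y i)]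
    · rw [abs_mul]
      exact mul_le_mul h3 ((abs_sub _ _).trans (by linarith [bubK_le hy i])) (abs_nonneg _) η0
  · rw [if_neg hi, if_neg hi]
    linarith

theorem bub_s (F : (Fin n ⊕ A → ℝ) → Fin n → ℝ)
    (h1 : ∀ k a, (∀ x, F (flp fac a x) k = F x k) ∨ ∀ x, F (flp fac a x) k = -F x k)
    (h2 : ∀ k x, F (flp fac (fac k) x) k = -F x k)
    (h3 : ∀ k k', k' < k → fac k' ≠ fac k → ∀ x, F (flp fac (fac k') x) k = F x k) :
    ∃ (s : Fin n → {x // bubNZ fac x} → ZMod 2) (χ : Fin n → A → ZMod 2),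
      (∀ k a x, s k (bubT a x) = s k x + χ k a) ∧ (∀ k, χ k (fac k) = 1) ∧
      (∀ k k', k' < k → fac k' ≠ fac k → χ k (fac k') = 0) ∧
      (∀ k x, 0 < F x.1 k → s k x = 1) ∧ ∀ k x, F x.1 k < 0 → s k x = 0 := by
  classical
  let χ : Fin n → A → ZMod 2 := fun k a =>
    if a ≠ fac k ∧ ∀ x, F (flp fac a x) k = F x k then 0 else 1
  choose sg hsg using fun k => bub_sign (fac := fac) (χ k)
  let s : Fin n → {x // bubNZ fac x} → ZMod 2 := fun k x =>
    if 0 < F x.1 k then 1 else if F x.1 k < 0 then 0 else sg k x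
  have hs : ∀ k a x, s k (bubT a x) = s k x + χ k a := by
    intro k a x
    by_cases h : a ≠ fac k ∧ ∀ x, F (flp fac a x) k = F x k
    · have e : F (bubT a x).1 k = F x.1 k := h.2 _
      simp only [s, e, hsg, χ, if_pos h, add_zero]
    · have e : F (bubT a x).1 k = -F x.1 k := by
        by_cases ha : a = fac k
        · exact ha ▸ h2 k _
        · exact (h1 k a).resolve_left (fun h' => h ⟨ha, h'⟩) _
      simp only [s, e, hsg, χ, if_neg h, Left.neg_pos_iff, Left.neg_neg_iff]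
      rcases lt_trichotomy (F x.1 k) 0 with h | h | h
      · simp [h, h.not_gt]
      · simp [h]
      · simp [h, h.not_gt, bu_two]
  exact ⟨s, χ, hs, fun k => if_neg fun h => h.1 rfl, fun k k' hk h => if_pos ⟨h, h3 _ _ hk h⟩,
    fun k x h => if_pos h, fun k x h => (if_neg h.not_gt).trans (if_pos h)⟩

theorem bub_comb {N : ℕ} (N0 : (0 : ℝ) < N) (s : Fin n → {x // bubNZ fac x} → ZMod 2)
    (χ : Fin n → A → ZMod 2) (hs : ∀ k a x, s k (bubT a x) = s k x + χ k a)
    (χ1 : ∀ k, χ k (fac k) = 1) (χ0 : ∀ k k', k' < k → fac k' ≠ fac k → χ k (fac k') = 0) :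
    ∃ l : List {x // bubNZ fac x}, (l.length = n + 1 ∧
      (∀ x ∈ l, x.1 ∈ bubK fac ∧ ∀ j : Fin n, n ≤ j.val → x.1 (.inl j) = 0) ∧
      ∀ x ∈ l, ∀ y ∈ l, ‖x.1 - y.1‖ ≤ n * (2 / N)) ∧
      buB (fun k x => if h : k < n then s ⟨k, h⟩ x else 0) n l ≠ 0 := by
  have e0 : (Sum.elim (fun _ => 0) fun _ => 1 : Fin n ⊕ A → ℝ) ∈ bubK fac := fun a => by
    simp [Fintype.sum_sum_type]
  exact bu_comb2 (X := {x // bubNZ fac x}) (n := n) (N := N)
    ⟨_, bubK_nz e0⟩ (fun k x => if h : k < n then bubT (fac ⟨k, h⟩) x else x)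
    (fun k i x => if h : k < n then bubF ⟨k, h⟩ ((i : ℝ) / N) x else x)
    (fun k x => if h : k < n then s ⟨k, h⟩ x else 0)
    (fun m l => l.length = m + 1 ∧
      (∀ x ∈ l, x.1 ∈ bubK fac ∧ ∀ j : Fin n, m ≤ j.val → x.1 (.inl j) = 0) ∧
      ∀ x ∈ l, ∀ y ∈ l, ‖x.1 - y.1‖ ≤ m * (2 / N))
    (fun k x => by
      split_ifs
      · exact Subtype.ext (bub_flp _ _)
      · rfl)
    (fun k x => by simp [bubF_zero])
    (fun k hk x => by simp only [dif_pos hk, div_self N0.ne', bubF_one])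
    (fun k hk k' hk' => by
      simp only [dif_pos hk, dif_pos (hk'.trans hk)]
      by_cases h : fac ⟨k', hk'.trans hk⟩ = fac ⟨k, hk⟩
      · exact Or.inl (by rw [h])
      · refine Or.inr ⟨fun x => Subtype.ext (bub_comm _ _ _), fun i x => bubT_F h _ x, fun x => ?_⟩
        rw [hs, χ0 _ _ hk' h, add_zero])
    (fun k hk x => by
      simp only [dif_pos hk, hs, χ1])
    (fun k hk k' hk' => ⟨_, fun x => by simp only [dif_pos hk, dif_pos hk']; exact hs _ _ x⟩)
    ⟨rfl, fun x hx => by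
      rw [List.mem_singleton.1 hx]
      exact ⟨e0, fun j _ => rfl⟩, by simp⟩
    (fun m hm l h => by
      simp only [dif_pos hm]
      refine ⟨by simpa using h.1, fun x hx => ?_, fun x hx y hy => ?_⟩
      · obtain ⟨y, hy, rfl⟩ := List.mem_map.1 hx
        refine ⟨fun a => ?_, fun j hj => ?_⟩
        · simpa only [bubT, bub_abs] using (h.2.1 y hy).1 a
        · rw [← abs_eq_zero]
          simp only [bubT, bub_abs, (h.2.1 y hy).2 j hj, abs_zero]
      · obtain ⟨x, hx', rfl⟩ := List.mem_map.1 hx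
        obtain ⟨y, hy', rfl⟩ := List.mem_map.1 hy
        refine le_trans ((pi_norm_le_iff_of_nonneg (norm_nonneg _)).2 fun i => ?_)
          (h.2.2 x hx' y hy')
        refine le_of_eq_of_le ?_ (norm_le_pi_norm (x.1 - y.1) i)
        simp only [bubT, flp, Pi.sub_apply]
        split_ifs
        · rw [neg_sub_neg, norm_sub_rev]
        · rfl)
    (fun m hm i hi l w h hw hz => by
      have i0 : (0 : ℝ) ≤ i / N := by positivity
      have i1 : (i : ℝ) / N + 1 / N ≤ 1 := by
        rw [← add_div, div_le_one N0]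
        exact_mod_cast hi
      have key : ∀ z ∈ w, ∃ x ∈ l, ∃ τ : ℝ, (i : ℝ) / N ≤ τ ∧ τ ≤ i / N + 1 / N ∧
          z.1 = bubMv fac ⟨m, hm⟩ τ x.1 ∧ z.1 ∈ bubK fac := fun z hz' => by
        have k2 : ∀ x ∈ l, ∀ τ : ℝ, (i : ℝ) / N ≤ τ → τ ≤ i / N + 1 / N → z = bubF ⟨m, hm⟩ τ x →
            z.1 = bubMv fac ⟨m, hm⟩ τ x.1 ∧ z.1 ∈ bubK fac := fun x hx τ t1 t2 e => by
          have k3 := bubK_mv (h.2.1 x hx).1 ((h.2.1 x hx).2 ⟨m, hm⟩ le_rfl) (i0.trans t1)
            (t2.trans i1)
          rw [e, bubF, dif_pos (bubK_nz k3)]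
          exact ⟨rfl, k3⟩
        obtain ⟨x, hx, h1 | h1⟩ := hz z hz'
        · rw [dif_pos hm] at h1
          have t2 : (i : ℝ) / N ≤ i / N + 1 / N := le_add_of_nonneg_right (by positivity)
          exact ⟨x, hx, _, le_rfl, t2, k2 x hx _ le_rfl t2 h1⟩
        · rw [dif_pos hm] at h1
          have t1 : (i : ℝ) / N ≤ ((i + 1 : ℕ) : ℝ) / N := by gcongr; omega
          have t2 : ((i + 1 : ℕ) : ℝ) / N ≤ i / N + 1 / N := by push_cast; rw [add_div]
          exact ⟨x, hx, _, t1, t2, k2 x hx _ t1 t2 h1⟩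
      refine ⟨by rw [hw, h.1], fun z hz' => ?_, fun z hz' z' hz'' => ?_⟩
      · obtain ⟨x, hx, τ, -, -, e, hK'⟩ := key z hz'
        refine ⟨hK', fun j hj => ?_⟩
        have hj' : (Sum.inl j : Fin n ⊕ A) ≠ .inl ⟨m, hm⟩ := fun h' => by
          have := congrArg Fin.val (Sum.inl_injective h')
          simp only at this
          omega
        rw [e, bubMv, (h.2.1 x hx).2 j (by omega), if_neg hj']
        simp
      · obtain ⟨x, hx, τ, t1, t2, e, -⟩ := key z hz'
        obtain ⟨y, hy, τ', t1', t2', e', -⟩ := key z' hz''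
        rw [e, e']
        refine (bub_dist (η := 1 / N) (h.2.1 y hy).1 _ (i0.trans t1) (t2.trans i1)
          (abs_le.2 ⟨by linarith, by linarith⟩)).trans ?_
        have : ((m + 1 : ℕ) : ℝ) * (2 / N) = m * (2 / N) + 1 / N * 2 := by push_cast; ring
        linarith [h.2.2 x hx y hy])

end

end Vale.Agent.P093
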