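import Vale.Agent.P093.BUa

/-! P093 BUb. The Borsuk-Ulam theorem for products of spheres, block form. -/

open Filter Topology Set

noncomputable section

namespace Vale.Agent.P093

theorem bub_unif {E E' : Type} [PseudoMetricSpace E] [PseudoMetricSpace E'] {K : Set E}
    {f : E → E'} (hK : IsCompact K) (hf : ContinuousOn f K) {c : ℝ} (hc : 0 < c) :
    ∃ η > 0, ∀ x ∈ K, ∀ y ∈ K, dist x y < η → dist (f x) (f y) < c :=
  Metric.uniformContinuousOn_iff.1 (hK.uniformContinuousOn_of_continuous hf) c hc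

open Vale.Agent.P209.C in
theorem bu_blocks {A : Type} [Fintype A] [DecidableEq A] {n : ℕ} (fac : Fin n → A)
    (F : (Fin n ⊕ A → ℝ) → Fin n → ℝ)
    (hF : ContinuousOn F {x | ∀ a, ∃ i, Sum.elim fac id i = a ∧ x i ≠ 0})
    (h1 : ∀ k a, (∀ x, F (flp fac a x) k = F x k) ∨ ∀ x, F (flp fac a x) k = -F x k)
    (h2 : ∀ k x, F (flp fac (fac k) x) k = -F x k)
    (h3 : ∀ k k', k' < k → fac k' ≠ fac k → ∀ x, F (flp fac (fac k') x) k = F x k) :
    ∃ x, (∀ a, ∃ i, Sum.elim fac id i = a ∧ x i ≠ 0) ∧ F x = 0 := by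
  by_contra hc
  push Not at hc
  have hK : ContinuousOn F (bubK fac) := hF.mono fun x hx => bubK_nz hx
  obtain ⟨c, c0, hc'⟩ := bubK_compact.exists_forall_le' hK.norm
    fun x hx => norm_pos_iff.2 (hc x (bubK_nz hx))
  obtain ⟨η, η0, hη⟩ := bub_unif bubK_compact hK c0
  obtain ⟨N, hN⟩ := exists_nat_gt (2 * (n + 1) / η)
  have N0 : (0 : ℝ) < N := lt_trans (by positivity) hN
  obtain ⟨s, χ, hs, χ1, χ0, s1, s0⟩ := bub_s F h1 h2 h3
  obtain ⟨l, ⟨hl, hlK, hd⟩, hB⟩ := bub_comb N0 s χ hs χ1 χ0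
  refine hB (buB_zero _ n l hl ?_)
  obtain ⟨x0, hx0⟩ := List.exists_mem_of_length_pos (l := l) (by omega)
  obtain ⟨i, hi⟩ : ∃ i, c ≤ |F x0.1 i| := by
    by_contra h
    push Not at h
    exact (hc' x0.1 (hlK x0 hx0).1).not_gt ((pi_norm_lt_iff c0).2 h)
  have hη' : (n : ℝ) * (2 / N) < η := by
    rw [div_lt_iff₀ η0] at hN
    rw [← mul_div_assoc, div_lt_iff₀ N0]
    linarith
  have key : ∀ y ∈ l, |F y.1 i - F x0.1 i| < c := fun y hy =>
    lt_of_le_of_lt (by rw [← Real.dist_eq]; exact dist_le_pi_dist _ _ i)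
      (hη y.1 (hlK y hy).1 x0.1 (hlK x0 hx0).1 (by
        rw [dist_eq_norm]
        exact (hd y hy x0 hx0).trans_lt hη'))
  refine ⟨i, i.2, fun x hx y hy => ?_⟩
  simp only [dif_pos i.2, Fin.eta]
  have k1 := abs_lt.1 (key x hx)
  have k2 := abs_lt.1 (key y hy)
  rcases le_abs.1 hi with h | h
  · rw [s1 i x (by linarith), s1 i y (by linarith)]
  · rw [s0 i x (by linarith), s0 i y (by linarith)]

end Vale.Agent.P093
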