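import Vale.Agent.P093.Defs
import Vale.Agent.P209N.C.BU

/-! P093 BUc (TASK). Combinatorial core of the Borsuk-Ulam theorem for products (helper38). -/

open Filter Topology Set

noncomputable section

namespace Vale.Agent.P093

open Vale.Agent.P209.C

section

variable {X : Type}

theorem buc_P_map {T f g : X → X} (hf : ∀ x, T (f x) = f (T x)) (hg : ∀ x, T (g x) = g (T x))
    (φ : List X → ZMod 2) (l : List X) :
    buP f g φ (l.map T) = buP f g (fun w => φ (w.map T)) l := by
  induction l generalizing φ with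
  | nil => rfl
  | cons x l ih =>
    simp only [buP, List.map_cons, List.map_map]
    rw [ih, hf, hg, show T ∘ g = g ∘ T from funext hg]

theorem buc_B_map {T : X → X} (s : ℕ → X → ZMod 2) (k : ℕ)
    (h : ∀ i < k, ∃ c, ∀ x, s i (T x) = s i x + c) (l : List X) :
    buB s k (l.map T) = buB s k l := by
  induction k generalizing l with
  | zero =>
    unfold buB
    rw [← buD_map]
    simp only [List.length_map]
  | succ k ih =>
    match l with
    | [] => rfl
    | [x] => rfl
    | x :: y :: l =>
      have h1 := ih (fun i hi => h i (by omega)) (y :: l)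
      obtain ⟨c, hc⟩ := h k (by omega)
      rw [List.map_cons] at h1
      rw [List.map_cons, List.map_cons, buB_cons, buB_cons, h1, hc, hc]
      linear_combination buB s k (y :: l) * bu_two c

/-- symmetrization -/
def bucS (T : X → X) (φ : List X → ZMod 2) (w : List X) : ZMod 2 := φ w + φ (w.map T)

/-- the products of hemispheres -/
def bucI (e : X) (T : ℕ → X → X) (f : ℕ → ℕ → X → X) (N : ℕ) : ℕ → (List X → ZMod 2) → ZMod 2
  | 0, φ => φ [e]
  | k + 1, φ => ∑ i ∈ Finset.range N, bucI e T f N k (bucS (T k) (buP (f k i) (f k (i + 1)) φ))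

variable {e : X} {T : ℕ → X → X} {f : ℕ → ℕ → X → X} {N : ℕ}

theorem bucI_add (k : ℕ) (φ ψ : List X → ZMod 2) :
    bucI e T f N k (fun w => φ w + ψ w) = bucI e T f N k φ + bucI e T f N k ψ := by
  induction k generalizing φ ψ with
  | zero => rfl
  | succ k ih =>
    simp only [bucI]
    rw [← Finset.sum_add_distrib]
    refine Finset.sum_congr rfl fun i _ => ?_
    rw [← ih]
    congr 1
    funext w
    simp only [bucS, buP_add]
    ring

theorem bucI_zero (k : ℕ) : bucI e T f N k (fun _ => 0) = 0 := by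
  have h := bucI_add (e := e) (T := T) (f := f) (N := N) k (fun _ => 0) fun _ => 0
  simp only [add_zero] at h
  rw [h, bu_two]

theorem bucI_step {k : ℕ} (h0 : ∀ x, f k 0 x = x) (hN : ∀ x, f k N (T k x) = f k N x)
    (φ : List X → ZMod 2)
    (h : ∀ i, bucI e T f N k (buD (bucS (T k) (buP (f k i) (f k (i + 1)) φ))) = 0) :
    bucI e T f N (k + 1) (buD φ) = bucI e T f N k (bucS (T k) φ) := by
  have key : ∀ i, bucI e T f N k (bucS (T k) (buP (f k i) (f k (i + 1)) (buD φ))) =
      bucI e T f N k (bucS (T k) fun w => φ (w.map (f k (i + 1)))) -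
        bucI e T f N k (bucS (T k) fun w => φ (w.map (f k i))) := by
    intro i
    rw [CharTwo.sub_eq_add, ← bucI_add, ← add_zero (bucI e T f N k fun w => _ + _),
      ← h i, ← bucI_add]
    congr 1
    funext w
    unfold bucS
    rw [buD_add, buD_map]
    simp only [buP_buD]
    ring
  simp only [bucI, key]
  rw [Finset.sum_range_sub fun i => bucI e T f N k (bucS (T k) fun w => φ (w.map (f k i))),
    CharTwo.sub_eq_add]
  have e1 : (bucS (T k) fun w => φ (w.map (f k N))) = fun _ => 0 := by
    funext w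
    have : f k N ∘ T k = f k N := funext hN
    simp only [bucS, List.map_map, this, bu_two]
  have e2 : (fun w : List X => φ (w.map (f k 0))) = φ := by
    funext w
    rw [show f k 0 = id from funext h0, List.map_id]
  rw [e1, e2, bucI_zero, zero_add]

theorem buc_inv {T T' f g : X → X} (hT : ∀ x, T (T x) = x) {φ : List X → ZMod 2}
    (h : T' = T ∨ ((∀ x, T' (T x) = T (T' x)) ∧ (∀ x, T' (f x) = f (T' x)) ∧
      (∀ x, T' (g x) = g (T' x)) ∧ ∀ w : List X, φ (w.map T') = φ w)) (w : List X) :
    bucS T (buP f g φ) (w.map T') = bucS T (buP f g φ) w := by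
  unfold bucS
  rcases h with rfl | ⟨h1, h2, h3, h4⟩
  · rw [List.map_map, show T' ∘ T' = id from funext hT, List.map_id, add_comm]
  · rw [List.map_map, show T ∘ T' = T' ∘ T from funext fun x => (h1 x).symm, ← List.map_map,
      buc_P_map h2 h3, buc_P_map h2 h3, funext h4]

theorem bucI_bd {n : ℕ} (hT : ∀ k x, T k (T k x) = x) (h0 : ∀ k x, f k 0 x = x)
    (hN : ∀ k < n, ∀ x, f k N (T k x) = f k N x)
    (hc : ∀ k < n, ∀ k' < k, T k' = T k ∨ ((∀ x, T k' (T k x) = T k (T k' x)) ∧
      ∀ i x, T k' (f k i x) = f k i (T k' x))) (k : ℕ) (hk : k ≤ n) (φ : List X → ZMod 2)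
    (h1 : φ [] = 0) (h2 : ∀ k' < k, ∀ w : List X, φ (w.map (T k')) = φ w) :
    bucI e T f N k (buD φ) = 0 := by
  induction k generalizing φ with
  | zero => simpa [bucI, buD] using h1
  | succ k ih =>
    have e2 : bucS (T k) φ = fun _ => 0 := by
      funext w
      rw [bucS, h2 k (by omega), bu_two]
    rw [bucI_step (h0 k) (hN k hk) φ fun i => ih (by omega) _ (bu_two _) fun k' hk' =>
      buc_inv (hT k) ((hc k hk k' hk').imp_right fun h => ⟨h.1, h.2 i, h.2 (i + 1),
        h2 k' (by omega)⟩), e2, bucI_zero]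

end

theorem bu_comb2 {X : Type} {n N : ℕ} (e : X) (T : ℕ → X → X) (f : ℕ → ℕ → X → X)
    (s : ℕ → X → ZMod 2) (Good : ℕ → List X → Prop) (hT : ∀ k x, T k (T k x) = x)
    (h0 : ∀ k x, f k 0 x = x) (hN : ∀ k < n, ∀ x, f k N (T k x) = f k N x)
    (hc : ∀ k < n, ∀ k' < k, T k' = T k ∨ ((∀ x, T k' (T k x) = T k (T k' x)) ∧
      (∀ i x, T k' (f k i x) = f k i (T k' x)) ∧ ∀ x, s k (T k' x) = s k x))
    (hs1 : ∀ k < n, ∀ x, s k (T k x) = s k x + 1)
    (hs3 : ∀ k < n, ∀ k' < n, ∃ c, ∀ x, s k (T k' x) = s k x + c)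
    (g0 : Good 0 [e]) (gn : ∀ k < n, ∀ l, Good k l → Good k (l.map (T k)))
    (gf : ∀ k < n, ∀ i < N, ∀ l w, Good k l → w.length = l.length + 1 →
      (∀ z ∈ w, ∃ x ∈ l, z = f k i x ∨ z = f k (i + 1) x) → Good (k + 1) w) :
    ∃ l, Good n l ∧ buB s n l ≠ 0 := by
  have supp : ∀ k ≤ n, ∀ φ, (∀ l, Good k l → φ l = 0) → bucI e T f N k φ = 0 := by
    intro k
    induction k with
    | zero => exact fun _ φ h => h _ g0
    | succ k ih =>
      intro hk φ h
      refine Finset.sum_eq_zero fun i hi => ih (by omega) _ fun l hl => ?_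
      have key : ∀ l, Good k l → buP (f k i) (f k (i + 1)) φ l = 0 := fun l hl =>
        buP_zero _ _ _ _ fun w hw hz => h w (gf k hk i (Finset.mem_range.1 hi) l w hl hw hz)
      rw [bucS, key l hl, key _ (gn k hk l hl), add_zero]
  have one : ∀ k ≤ n, bucI e T f N k (buB s k) = 1 := by
    intro k
    induction k with
    | zero => intro _; simp [bucI, buB, buD]
    | succ k ih =>
      intro hk
      have hB : ∀ k' < n, ∀ l : List X, buB s k (l.map (T k')) = buB s k l := fun k' hk' l =>
        buc_B_map s k (fun i hi => hs3 i (by omega) k' hk') l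
      have h1 : bucS (T k) (buC (s k) (buB s k)) = buB s k := by
        funext l
        match l with
        | [] => cases k <;> rfl
        | x :: l =>
          have h2 := hB k hk (x :: l)
          rw [List.map_cons] at h2
          simp only [bucS, buC, List.map_cons]
          rw [h2, hs1 k hk x]
          linear_combination bu_two (s k x * buB s k (x :: l))
      rw [buB, bucI_step (h0 k) (hN k hk), h1, ih (by omega)]
      intro i
      refine bucI_bd hT h0 hN (fun k hk k' hk' => (hc k hk k' hk').imp_right fun h => ⟨h.1, h.2.1⟩)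
        k (by omega) _ (bu_two _) fun k' hk' => buc_inv (hT k) ((hc k hk k' hk').imp_right
          fun h => ⟨h.1, h.2.1 i, h.2.1 (i + 1), fun w => ?_⟩)
      match w with
      | [] => rfl
      | x :: l =>
        have h2 := hB k' (by omega) (x :: l)
        rw [List.map_cons] at h2
        simp only [buC, List.map_cons]
        rw [h2, h.2.2]
  by_contra hcon
  push Not at hcon
  exact zero_ne_one ((supp n le_rfl _ hcon).symm.trans (one n le_rfl))

end Vale.Agent.P093
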