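import Vale.Agent.P093.BUb

/-! P093 BUp (TASK). The Borsuk-Ulam theorem for products of spheres, final form. Helper names start with `bup_`.
Apply `bu_blocks` with `A = Option J`, `n = card (J × Fin 2) + card D`, `σ : Fin n ≃ J × Fin 2 ⊕ D` built from `finSumFinEquiv` and `Fintype.equivFin` (all indices of the left summand are smaller than those of the right one), `fac k = Sum.elim (fun a => some a.1) (fun _ => none) (σ k)`.
For `x : Fin n ⊕ Option J → ℝ` put `v x = fun o => o.elim (x (inr none)) fun d => x (inl (σ.symm (inr d)))`, `u x j = Fin.cons (x (inr (some j))) fun c => x (inl (σ.symm (inl (j, c))))`. Then `flp fac none` negates `v` and fixes `u`; `flp fac (some j)` fixes `v` and replaces `u` by `update u j (-u j)`. -/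

open Filter Topology Set

noncomputable section

namespace Vale.Agent.P093

section

variable {J D : Type} [DecidableEq J] {n : ℕ} (σ : Fin n ≃ J × Fin 2 ⊕ D)

/-- The block of an index. -/
def bup_fac (k : Fin n) : Option J := Sum.elim (fun a => some a.1) (fun _ => none) (σ k)

/-- The first coordinates. -/
def bup_v (x : Fin n ⊕ Option J → ℝ) : Option D → ℝ :=
  fun o => o.elim (x (.inr none)) fun d => x (.inl (σ.symm (.inr d)))

/-- The second coordinates. -/
def bup_u (x : Fin n ⊕ Option J → ℝ) (j : J) : Fin 3 → ℝ :=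
  ![x (.inr (some j)), x (.inl (σ.symm (.inl (j, 0)))), x (.inl (σ.symm (.inl (j, 1))))]

theorem bup_v_none (x : Fin n ⊕ Option J → ℝ) :
    bup_v σ (flp (bup_fac σ) none x) = -bup_v σ x := by
  funext o
  cases o <;> simp [bup_v, flp, bup_fac]

theorem bup_v_some (x : Fin n ⊕ Option J → ℝ) (j : J) :
    bup_v σ (flp (bup_fac σ) (some j) x) = bup_v σ x := by
  funext o
  cases o <;> simp [bup_v, flp, bup_fac]

theorem bup_u_none (x : Fin n ⊕ Option J → ℝ) :
    bup_u σ (flp (bup_fac σ) none x) = bup_u σ x := by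
  funext j
  simp [bup_u, flp, bup_fac]

theorem bup_u_some (x : Fin n ⊕ Option J → ℝ) (j : J) :
    bup_u σ (flp (bup_fac σ) (some j) x) = Function.update (bup_u σ x) j (-bup_u σ x j) := by
  funext j'
  by_cases h : j' = j
  · subst h
    rw [Function.update_self]
    simp [bup_u, flp, bup_fac]
  · rw [Function.update_of_ne h]
    simp [bup_u, flp, bup_fac, h]

omit [DecidableEq J] in
theorem bup_u_ne {x : Fin n ⊕ Option J → ℝ} {j : J}
    (h : ∃ i, Sum.elim (bup_fac σ) id i = some j ∧ x i ≠ 0) : bup_u σ x j ≠ 0 := by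
  obtain ⟨i, h1, h2⟩ := h
  intro h0
  have a0 := congrFun h0 0
  have a1 := congrFun h0 1
  have a2 := congrFun h0 2
  rcases i with k | o
  · obtain ⟨s, rfl⟩ := σ.symm.surjective k
    rcases s with ⟨j', c⟩ | d
    · obtain rfl : j' = j := by simpa [bup_fac] using h1
      fin_cases c
      · exact h2 a1
      · exact h2 a2
    · simp [bup_fac] at h1
  · obtain rfl : o = some j := h1
    exact h2 a0

omit [DecidableEq J] in
theorem bup_v_ne {x : Fin n ⊕ Option J → ℝ}
    (h : ∃ i, Sum.elim (bup_fac σ) id i = none ∧ x i ≠ 0) : bup_v σ x ≠ 0 := by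
  obtain ⟨i, h1, h2⟩ := h
  intro h0
  rcases i with k | o
  · obtain ⟨s, rfl⟩ := σ.symm.surjective k
    rcases s with ⟨j', c⟩ | d
    · simp [bup_fac] at h1
    · exact h2 (congrFun h0 (some d))
  · obtain rfl : o = none := h1
    exact h2 (congrFun h0 none)

omit [DecidableEq J] in
theorem bup_cont : Continuous fun x : Fin n ⊕ Option J → ℝ => (bup_v σ x, bup_u σ x) := by
  refine Continuous.prodMk (continuous_pi fun o => ?_)
    (continuous_pi fun j => continuous_pi fun c => ?_)
  · cases o <;> exact continuous_apply _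
  · fin_cases c <;> exact continuous_apply _

end

theorem bup_sig (A D : Type) [Fintype A] [Fintype D] : ∃ (n : ℕ) (σ : Fin n ≃ A ⊕ D),
    ∀ d a, ¬σ.symm (.inr d) < σ.symm (.inl a) := by
  refine ⟨_, finSumFinEquiv.symm.trans
    (Equiv.sumCongr (Fintype.equivFin A).symm (Fintype.equivFin D).symm), fun d a h => ?_⟩
  have h1 := (Fintype.equivFin A a).2
  simp [Fin.lt_def] at h
  omega

theorem bu_prod {J D : Type} [Fintype J] [DecidableEq J] [Fintype D]
    (G : (Option D → ℝ) → (J → Fin 3 → ℝ) → D → ℝ)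
    (F : (Option D → ℝ) → (J → Fin 3 → ℝ) → J → Fin 2 → ℝ)
    (cG : ContinuousOn (fun z : (Option D → ℝ) × (J → Fin 3 → ℝ) => G z.1 z.2)
      {z | ∀ j, z.2 j ≠ 0})
    (cF : ContinuousOn (fun z : (Option D → ℝ) × (J → Fin 3 → ℝ) => F z.1 z.2)
      {z | ∀ j, z.2 j ≠ 0})
    (G1 : ∀ v u, G (-v) u = -G v u) (G2 : ∀ v u j, G v (Function.update u j (-u j)) = G v u)
    (F1 : ∀ v u, F (-v) u = -F v u)
    (F2 : ∀ v u j, F v (Function.update u j (-u j)) j = -F v u j)
    (F3 : ∀ v u j j', j' ≠ j → F v (Function.update u j (-u j)) j' = F v u j') :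
    ∃ v u, v ≠ 0 ∧ (∀ j, u j ≠ 0) ∧ G v u = 0 ∧ F v u = 0 := by
  obtain ⟨n, σ, hσ⟩ := bup_sig (J × Fin 2) D
  refine Exists.elim (bu_blocks (bup_fac σ)
    (fun x k => Sum.elim (fun a : J × Fin 2 => F (bup_v σ x) (bup_u σ x) a.1 a.2)
      (fun d => G (bup_v σ x) (bup_u σ x) d) (σ k)) ?_ ?_ ?_ ?_) ?_
  · have hm : MapsTo (fun x : Fin n ⊕ Option J → ℝ => (bup_v σ x, bup_u σ x))
        {x | ∀ a, ∃ i, Sum.elim (bup_fac σ) id i = a ∧ x i ≠ 0} {z | ∀ j, z.2 j ≠ 0} :=
      fun x hx j => bup_u_ne σ (hx (some j))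
    have c1 := cF.comp (bup_cont σ).continuousOn hm
    have c2 := cG.comp (bup_cont σ).continuousOn hm
    refine continuousOn_pi.2 fun k => ?_
    rcases σ k with ⟨j, c⟩ | d
    · exact continuousOn_pi.1 (continuousOn_pi.1 c1 j) c
    · exact continuousOn_pi.1 c2 d
  · intro k a
    rcases σ k with ⟨j, c⟩ | d <;> rcases a with _ | j'
    · exact Or.inr fun x => by simp [bup_v_none, bup_u_none, F1]
    · by_cases h : j = j'
      · subst h
        exact Or.inr fun x => by simp [bup_v_some, bup_u_some, F2]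
      · exact Or.inl fun x => by simp [bup_v_some, bup_u_some, F3 _ _ _ _ h]
    · exact Or.inr fun x => by simp [bup_v_none, bup_u_none, G1]
    · exact Or.inl fun x => by simp [bup_v_some, bup_u_some, G2]
  · intro k x
    obtain ⟨s, rfl⟩ := σ.symm.surjective k
    rcases s with ⟨j, c⟩ | d
    · have e : bup_fac σ (σ.symm (.inl (j, c))) = some j := by simp [bup_fac]
      simp [e, bup_v_some, bup_u_some, F2]
    · have e : bup_fac σ (σ.symm (.inr d)) = none := by simp [bup_fac]
      simp [e, bup_v_none, bup_u_none, G1]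
  · intro k k' hk hne x
    obtain ⟨s, rfl⟩ := σ.symm.surjective k
    obtain ⟨s', rfl⟩ := σ.symm.surjective k'
    rcases s' with ⟨j', c'⟩ | d'
    · have e : bup_fac σ (σ.symm (.inl (j', c'))) = some j' := by simp [bup_fac]
      rcases s with ⟨j, c⟩ | d
      · have h : j ≠ j' := fun h => hne (by simp [bup_fac, h])
        simp [e, bup_v_some, bup_u_some, F3 _ _ _ _ h]
      · simp [e, bup_v_some, bup_u_some, G2]
    · rcases s with a | d
      · exact absurd hk (hσ d' a)
      · exact absurd (by simp [bup_fac]) hne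
  · rintro x ⟨hx, h0⟩
    refine ⟨bup_v σ x, bup_u σ x, bup_v_ne σ (hx none), fun j => bup_u_ne σ (hx (some j)),
      funext fun d => ?_, funext fun j => funext fun c => ?_⟩
    · simpa using congrFun h0 (σ.symm (.inr d))
    · simpa using congrFun h0 (σ.symm (.inl (j, c)))

end Vale.Agent.P093
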