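import Vale.Agent.P093.Main
import Vale.Agent.P093.Gen

open Vale.Agent.P093

theorem Vale.Agent.P093.block_result (K : Type) [MetricSpace K] [CompactSpace K] (k : ℕ)
    (hK : ∀ 𝒰 : Set (Set K), IsCover 𝒰 → leastOrd 𝒰 ≤ k)
    (e : (Fin k → unitInterval) → K) (he : Continuous e) (he' : Function.Injective e)
    (w : ℕ → ℤ → Option K) (q : ℕ → ℕ) (hq : ∀ n, 0 < q n) (hper : ∀ n i, w n (i + q n) = w n i)
    (hnest : ∀ n i c, w n i = some c → w (n + 1) i = some c)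
    (h : blockSet w ≃ₜ blockSet w) (hh : ∀ x i, (h x).1 i = x.1 (i + 1))
    (hmin : ∀ x, Dense (Set.range fun n : ℤ => (h ^ n) x)) [Infinite (blockSet w)] :
    mdim h / 2 ≤ rcGen (gens h) :=
  Pat.main ⟨hq, hper, hnest, hh, hmin⟩ hK he he'
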