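import Vale.Agent.P093.Obs
import Vale.Agent.P093.Op
import Vale.Agent.P093.Cfc

/-! P093 Core (TASK). The lower bound from marked products of spheres. Helper names start with `cor_`.
`g : C(X, ℂ)` the indicator of the clopen set `Y` (`IsClopen.continuous_indicator`, or `ContinuousMap.indicator`-type lemma, `continuous_if`). `ι = Fin p ⊕ L × Fin 2`, `σ = (Fintype.equivFin ι).symm`, `A₀ B₀ D₀ : Matrix ι ι C(X, ℂ)` with values `g x * matA i j`, `g x * matB (ρ · x) i j`, `D₀ = diagonal (g x * √((1 - ∑ ρ ^ 2) / 4))` on the right summand.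
`a = CStarMatrix.ofMatrix ((A₀.map π).submatrix σ σ)`, the same for `b`, `d`. The identities `star a = a`, `a * a = a`, `star b = b`, `b - b * b = star d * d` are checked entrywise (`CStarMatrix.mul_apply`, `Equiv.sum_comp`, `map_sum π`, `ContinuousMap.ext`, `g x * g x = g x`, `star (g x) = g x`, the lemmas of `Emb`); it is convenient to use the star algebra map `Matrix ι ι C(X, ℂ) → CStarMatrix (Fin n) (Fin n) A` composed of `CStarMatrix.ofMatrixStarAlgEquiv`, `Matrix.map`, `submatrix`.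
`∑ i, a i i = p • π g`, `∑ i, b i i = card L • π g`, `trace_ind` for `μ = τ ∘ π`; `dimFn_proj`, `le_dimFn`, `unit_of`. A sequence `x k` with `star (x k) * b * x k → a` converges entrywise (the topology is the product topology; `CStarMatrix.norm_entry_le_norm`), contradiction with `not_close`. -/

open Filter Topology Set

noncomputable section

namespace Vale.Agent.P093

variable {X : Type} [TopologicalSpace X] [CompactSpace X] {h : X ≃ₜ X} {q p : ℕ} {L : Type}
  [Fintype L] [DecidableEq L] {Y : Set X} {ρ : L → X → Fin 3 → ℝ}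

section

variable {ι : Type} [Fintype ι] [DecidableEq ι] {A : Type} [CStarAlgebra A] {n : ℕ}

/-- The value of a matrix of functions. -/
def cor_ev (M : Matrix ι ι C(X, ℂ)) (x : X) : Matrix ι ι ℂ := Matrix.of fun i j => M i j x

omit [CompactSpace X] [Fintype ι] [DecidableEq ι] in
theorem cor_ext {M N : Matrix ι ι C(X, ℂ)} (e : ∀ x, cor_ev M x = cor_ev N x) : M = N :=
  Matrix.ext fun i j => ContinuousMap.ext fun x => congrFun (congrFun (e x) i) j

omit [CompactSpace X] [DecidableEq ι] in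
theorem cor_ev_mul (M N : Matrix ι ι C(X, ℂ)) (x : X) :
    cor_ev (M * N) x = cor_ev M x * cor_ev N x := by
  ext i j
  simp [cor_ev, Matrix.mul_apply, ContinuousMap.sum_apply]

omit [CompactSpace X] [Fintype ι] [DecidableEq ι] in
theorem cor_ev_star (M : Matrix ι ι C(X, ℂ)) (x : X) : cor_ev (star M) x = star (cor_ev M x) := by
  ext i j
  simp [cor_ev, Matrix.star_apply]

omit [CompactSpace X] [Fintype ι] [DecidableEq ι] in
theorem cor_ev_sub (M N : Matrix ι ι C(X, ℂ)) (x : X) :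
    cor_ev (M - N) x = cor_ev M x - cor_ev N x := by
  ext i j
  simp [cor_ev]

omit [CompactSpace X] [Fintype ι] [DecidableEq ι] in
theorem cor_lift (g : C(X, ℂ)) (m : X → Matrix ι ι ℂ) (hm : ∀ i j, Continuous fun x => m x i j) :
    ∃ M : Matrix ι ι C(X, ℂ), ∀ x, cor_ev M x = g x • m x :=
  ⟨Matrix.of fun i j => ⟨fun x => g x * m x i j, g.continuous.mul (hm i j)⟩, fun _ => rfl⟩

/-- The image of a matrix of functions. -/
def cor_F (π : C(X, ℂ) →⋆ₐ[ℂ] A) (σ : Fin n ≃ ι) (M : Matrix ι ι C(X, ℂ)) :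
    CStarMatrix (Fin n) (Fin n) A := CStarMatrix.ofMatrix fun i j => π (M (σ i) (σ j))

variable (π : C(X, ℂ) →⋆ₐ[ℂ] A) (σ : Fin n ≃ ι)

omit [CompactSpace X] [Fintype ι] [DecidableEq ι] in
theorem cor_F_apply (M : Matrix ι ι C(X, ℂ)) (i j : Fin n) :
    cor_F π σ M i j = π (M (σ i) (σ j)) := rfl

omit [CompactSpace X] [DecidableEq ι] in
theorem cor_F_mul (M N : Matrix ι ι C(X, ℂ)) :
    cor_F π σ M * cor_F π σ N = cor_F π σ (M * N) := by
  ext i j
  rw [CStarMatrix.mul_apply, cor_F_apply, Matrix.mul_apply, map_sum, ← Equiv.sum_comp σ]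
  simp only [cor_F_apply, map_mul]

omit [CompactSpace X] [Fintype ι] [DecidableEq ι] in
theorem cor_F_star (M : Matrix ι ι C(X, ℂ)) : star (cor_F π σ M) = cor_F π σ (star M) := by
  ext i j
  rw [CStarMatrix.star_apply, cor_F_apply, cor_F_apply, Matrix.star_apply, map_star]

omit [CompactSpace X] [Fintype ι] [DecidableEq ι] in
theorem cor_F_sub (M N : Matrix ι ι C(X, ℂ)) :
    cor_F π σ M - cor_F π σ N = cor_F π σ (M - N) := by
  ext i j
  rw [CStarMatrix.sub_apply, cor_F_apply, cor_F_apply, cor_F_apply, Matrix.sub_apply, map_sub]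

omit [CompactSpace X] [DecidableEq ι] in
theorem cor_F_tr {M : Matrix ι ι C(X, ℂ)} {g : C(X, ℂ)} {m : X → Matrix ι ι ℂ}
    (hM : ∀ x, cor_ev M x = g x • m x) {c : ℂ} (hc : ∀ x, ∑ i, m x i i = c) :
    ∑ i, cor_F π σ M i i = c • π g := by
  simp only [cor_F_apply]
  rw [Equiv.sum_comp σ fun i => π (M i i), ← map_sum, ← map_smul]
  congr 1
  ext x
  have e : ∀ i, M i i x = g x * m x i i := fun i => congrFun (congrFun (hM x) i) i
  simp only [ContinuousMap.sum_apply, e, ContinuousMap.smul_apply, smul_eq_mul, ← Finset.mul_sum,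
    hc x]
  exact mul_comm _ _

end

theorem cor_coe {H ι : Type} [Ring H] [StarRing H] [Algebra ℂ H] [StarModule ℂ H] [Fintype ι]
    (S : StarSubalgebra ℂ H) (u w : ι → S) (b : ι → ι → S) (a : S) :
    ((∑ k, ∑ l, star (u k) * b k l * w l - a : S) : H) =
      ∑ k, ∑ l, star (u k : H) * b k l * w l - a := by
  have e2 := map_sub S.subtype (∑ k, ∑ l, star (u k) * b k l * w l) a
  simp only [map_sum, map_mul, map_star] at e2
  exact e2

omit [CompactSpace X] in
theorem cor_mats (hM : Mark h q p Y ρ) {g : C(X, ℂ)} (gg : ∀ x, g x * g x = g x)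
    (gs : ∀ x, star (g x) = g x) :
    ∃ A₀ B₀ D₀ : Matrix (Fin p ⊕ L × Fin 2) (Fin p ⊕ L × Fin 2) C(X, ℂ),
      (∀ x, cor_ev A₀ x = g x • matA p L) ∧ (∀ x, cor_ev B₀ x = g x • matB p fun l => ρ l x) ∧
      star A₀ = A₀ ∧ A₀ * A₀ = A₀ ∧ star B₀ = B₀ ∧ B₀ - B₀ * B₀ = star D₀ * D₀ := by
  obtain ⟨A₀, hA⟩ := cor_lift g (fun _ => matA p L) fun _ _ => continuous_const
  obtain ⟨B₀, hB⟩ := cor_lift g (fun x => matB p fun l => ρ l x) fun i j =>
    (matB_cont i j).comp (continuous_pi hM.cont)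
  obtain ⟨D₀, hD⟩ := cor_lift (ι := Fin p ⊕ L × Fin 2) g (fun x => Matrix.diagonal
    (Sum.elim (fun _ => 0) fun a => ((√((1 - ∑ c, ρ a.1 x c ^ 2) / 4) : ℝ) : ℂ))) fun i j => by
      simp only [Matrix.diagonal_apply]
      split_ifs
      · rcases i with i | i
        · exact continuous_const
        · have := hM.cont i.1
          simp only [Sum.elim_inr]
          fun_prop
      · exact continuous_const
  refine ⟨A₀, B₀, D₀, hA, hB, cor_ext fun x => ?_, cor_ext fun x => ?_, cor_ext fun x => ?_,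
    cor_ext fun x => ?_⟩
  · rw [cor_ev_star, hA, star_smul, gs, matA_star]
  · rw [cor_ev_mul, hA, smul_mul_smul_comm, gg, matA_sq]
  · rw [cor_ev_star, hB, star_smul, gs, matB_star]
  · rw [cor_ev_sub, cor_ev_mul, cor_ev_mul, cor_ev_star, hB, hD, star_smul, gs, smul_mul_smul_comm,
      smul_mul_smul_comm, gg, ← smul_sub, matB_sq, Matrix.star_eq_conjTranspose,
      Matrix.diagonal_conjTranspose, Matrix.diagonal_mul_diagonal]
    refine congrArg (fun f => g x • Matrix.diagonal f) (funext fun i => ?_)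
    rcases i with i | i
    · simp only [Sum.elim_inl, mul_zero]
    · have h0 : 0 ≤ (1 - ∑ c, ρ i.1 x c ^ 2) / 4 := by linarith [hM.ball i.1 x]
      simp only [Sum.elim_inr, Pi.star_apply, Complex.star_def, Complex.conj_ofReal]
      rw [← Complex.ofReal_mul, Real.mul_self_sqrt h0]

theorem not_bound [PartialOrder (cross h)] [StarOrderedRing (cross h)] (hM : Mark h q p Y ρ)
    (hq : 0 < q) {r : ℝ} (hr : r < ((Fintype.card L : ℝ) - p) / q) : ¬ IsBound (cross h) r := by
  intro hb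
  obtain ⟨π, hπ, hτ⟩ := exists_rep h
  let g : C(X, ℂ) := ⟨Y.indicator fun _ => 1, hM.mk'.clopen.continuous_indicator continuous_const⟩
  have g1 : ∀ x ∈ Y, g x = 1 := fun x hx => indicator_of_mem hx fun _ => (1 : ℂ)
  have g0 : ∀ x ∉ Y, g x = 0 := fun x hx => indicator_of_notMem hx fun _ => (1 : ℂ)
  have gg : ∀ x, g x * g x = g x := fun x => by
    by_cases hx : x ∈ Y
    · rw [g1 x hx, mul_one]
    · rw [g0 x hx, mul_zero]
  have gs : ∀ x, star (g x) = g x := fun x => by
    by_cases hx : x ∈ Y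
    · rw [g1 x hx, star_one]
    · rw [g0 x hx, star_zero]
  obtain ⟨A₀, B₀, D₀, hA, hB, a1, a2, b1, b2⟩ := cor_mats hM gg gs
  let σ := (Fintype.equivFin (Fin p ⊕ L × Fin 2)).symm
  have a1' : star (cor_F π σ A₀) = cor_F π σ A₀ := by rw [cor_F_star, a1]
  have a2' : cor_F π σ A₀ * cor_F π σ A₀ = cor_F π σ A₀ := by rw [cor_F_mul, a2]
  have b1' : star (cor_F π σ B₀) = cor_F π σ B₀ := by rw [cor_F_star, b1]
  have b2' : cor_F π σ B₀ - cor_F π σ B₀ * cor_F π σ B₀ = star (cor_F π σ D₀) * cor_F π σ D₀ := by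
    rw [cor_F_mul, cor_F_sub, b2, cor_F_star, cor_F_mul]
  have a0 : 0 ≤ cor_F π σ A₀ := by
    have := star_mul_self_nonneg (cor_F π σ A₀)
    rwa [a1', a2'] at this
  obtain ⟨b0, b3⟩ := unit_of b1' b2'
  obtain ⟨x, hx⟩ := hb _ _ _ a0 b0 fun τ ht => by
    have e : τ (π g) = 1 / q := trace_ind hM.mk' hq g1 g0 (τ ∘ₗ π.toAlgHom.toLinearMap)
      (by
        show τ (π 1) = 1
        rw [map_one, ht.1]) (hτ τ ht)
    refine lt_of_lt_of_le ?_ (le_dimFn ht b0 b3)
    rw [dimFn_proj τ a1' a2', cor_F_tr π σ hA fun _ => matA_tr,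
      cor_F_tr π σ hB fun x => matB_tr _, map_smul, map_smul, e]
    have e1 : ∀ k : ℕ, ((k : ℂ) • (1 / q : ℂ)).re = k / q := fun k => by
      rw [smul_eq_mul, mul_one_div, ← Complex.ofReal_natCast, ← Complex.ofReal_natCast,
        ← Complex.ofReal_div, Complex.ofReal_re]
    rw [e1, e1]
    rw [sub_div] at hr
    linarith
  obtain ⟨k, hk⟩ := (Metric.tendsto_nhds.1 hx (1 / (Fintype.card (Fin p ⊕ L × Fin 2) + 1))
    (by positivity)).exists
  rw [dist_eq_norm] at hk
  refine not_close hM hq g1 g0 (A := fun i j => π (A₀ i j)) (B := fun i j => π (B₀ i j))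
    (x := fun i j => x k (σ.symm i) (σ.symm j)) (fun i j ξ a => ?_) (fun i j ξ a => ?_)
    (fun i j => (x k (σ.symm i) (σ.symm j)).2) fun i j => ?_
  · rw [hπ]
    exact congrArg (· * ξ a) (congrFun (congrFun (hA _) i) j)
  · rw [hπ]
    exact congrArg (· * ξ a) (congrFun (congrFun (hB _) i) j)
  · refine lt_of_eq_of_lt ?_
      ((CStarMatrix.norm_entry_le_norm (i := σ.symm i) (j := σ.symm j)).trans_lt hk)
    have e : (star (x k) * cor_F π σ B₀ * x k - cor_F π σ A₀) (σ.symm i) (σ.symm j) =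
        ∑ a, ∑ b, star (x k (σ.symm a) (σ.symm i)) * π (B₀ a b) * x k (σ.symm b) (σ.symm j) -
          π (A₀ i j) := by
      rw [CStarMatrix.sub_apply, CStarMatrix.mul_apply, cor_F_apply, Equiv.apply_symm_apply,
        Equiv.apply_symm_apply, Finset.sum_comm, ← Equiv.sum_comp σ.symm]
      congr 1
      refine Finset.sum_congr rfl fun b _ => ?_
      rw [CStarMatrix.mul_apply, Finset.sum_mul, ← Equiv.sum_comp σ.symm]
      refine Finset.sum_congr rfl fun a _ => ?_
      rw [CStarMatrix.star_apply, cor_F_apply, Equiv.apply_symm_apply, Equiv.apply_symm_apply]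
    rw [e]
    exact (congrArg norm (cor_coe (cross h) _ _ _ _)).symm

theorem le_rc (hM : Mark h q p Y ρ) (hq : 0 < q) :
    ENNReal.ofReal (((Fintype.card L : ℝ) - p) / q) ≤ rc (cross h) := by
  let := CStarAlgebra.spectralOrder (cross h)
  have := CStarAlgebra.spectralOrderedRing (cross h)
  refine le_iInf₂ fun r hr => ?_
  rw [← ENNReal.ofReal_coe_nnreal]
  exact ENNReal.ofReal_le_ofReal (not_lt.1 fun hlt => not_bound hM hq hlt hr)

end Vale.Agent.P093
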