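import Vale.Agent.P093.Stmt

/-! P093: definitions used in the proof (no task here). Overview in `notes/P093.md`. -/

open Filter Topology Set

noncomputable section

namespace Vale.Agent.P093

/-- The unit sphere. -/
abbrev S2 : Type := {ω : Fin 3 → ℝ // ∑ c, ω c ^ 2 = 1}

section

variable {X : Type} [TopologicalSpace X]

/-- `Y` is the base of a clopen tower of height `q` filling `X`. -/
structure Marker (h : X ≃ₜ X) (q : ℕ) (Y : Set X) : Prop where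
  clopen : IsClopen Y
  ret : ∀ y ∈ Y, ∀ l : ℤ, (h ^ l) y ∈ Y ↔ (q : ℤ) ∣ l
  cov : ∀ x, ∃ l : ℤ, (h ^ l) x ∈ Y

/-- Products of spheres along long orbit segments. -/
structure Mark (h : X ≃ₜ X) (q p : ℕ) {L : Type} (Y : Set X) (ρ : L → X → Fin 3 → ℝ) : Prop where
  mk' : Marker h q Y
  cont : ∀ i, Continuous (ρ i)
  ball : ∀ i x, ∑ c, ρ i x c ^ 2 ≤ 1
  cube : ∀ C : ℕ, ∃ (M : ℕ) (Bad : Finset (Fin M × L)) (φ : (Fin M × L → S2) → X),
    Continuous φ ∧ (∀ ω, φ ω ∈ Y) ∧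
    (∀ ω γ, γ ∉ Bad → ρ γ.2 ((h ^ ((q : ℤ) * (γ.1 : ℕ))) (φ ω)) = (ω γ).1) ∧
    4 * Bad.card + C < M * p

/-- `π` is the representation of the continuous functions. -/
def Rep (h : X ≃ₜ X) [CompactSpace X] (π : C(X, ℂ) →⋆ₐ[ℂ] cross h) : Prop :=
  ∀ f ξ p, (π f : Hs X →L[ℂ] Hs X) ξ p = f ((h ^ p.1) p.2) * ξ p

open Classical in
/-- Basis vectors. -/
def dl (p : ℤ × X) : Hs X := lp.single 2 p 1

/-- Finite propagation and continuous matrix coefficients. -/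
structure FP (R : ℕ) (T : Hs X →L[ℂ] Hs X) : Prop where
  supp : ∀ p p' : ℤ × X, T (dl p') p ≠ 0 → p.2 = p'.2 ∧ |p.1 - p'.1| ≤ R
  cont : ∀ i j : ℤ, Continuous fun y => T (dl (j, y)) (i, y)

end

/-- The Bott matrix. -/
def bott (ω : Fin 3 → ℝ) : Matrix (Fin 2) (Fin 2) ℂ :=
  !![(1 + ω 0) / 2, (ω 1 - ω 2 * Complex.I) / 2; (ω 1 + ω 2 * Complex.I) / 2, (1 - ω 0) / 2]

/-- The trivial projection of rank `p`. -/
def matA (p : ℕ) (L : Type) [DecidableEq L] :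
    Matrix (Fin p ⊕ L × Fin 2) (Fin p ⊕ L × Fin 2) ℂ :=
  Matrix.diagonal (Sum.elim (fun _ => 1) fun _ => 0)

/-- The direct sum of the Bott matrices. -/
def matB (p : ℕ) {L : Type} [DecidableEq L] (ω : L → Fin 3 → ℝ) :
    Matrix (Fin p ⊕ L × Fin 2) (Fin p ⊕ L × Fin 2) ℂ
  | .inr a, .inr b => if a.1 = b.1 then bott (ω a.1) a.2 b.2 else 0
  | _, _ => 0

/-- The spinor of a real vector. -/
def spin (u : Fin 3 → ℝ) : Fin 2 → ℂ := ![u 0, u 1 + u 2 * Complex.I]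

section

variable {K : Type}

open Classical in
/-- The number of holes of a pattern in `[a, a + N)`. -/
def st (w : ℤ → Option K) (a : ℤ) (N : ℕ) : ℕ :=
  ((Finset.range N).filter fun i : ℕ => w (a + i) = none).card

/-- The density of the holes. -/
def rho (w : ℕ → ℤ → Option K) (q : ℕ → ℕ) : ℝ := ⨅ n, (st (w n) 0 (q n) : ℝ) / q n

/-- Admissible offsets. -/
def offs (w : ℤ → Option K) (x : ℤ → K) : Set ℤ := {k | ∀ i c, w (i + k) = some c → x i = c}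

/-- The standing hypotheses on the patterns and the shift. -/
structure Pat [TopologicalSpace K] (w : ℕ → ℤ → Option K) (q : ℕ → ℕ)
    (h : blockSet w ≃ₜ blockSet w) : Prop where
  pos : ∀ n, 0 < q n
  per : ∀ n i, w n (i + q n) = w n i
  nest : ∀ n i c, w n i = some c → w (n + 1) i = some c
  sh : ∀ x i, (h x).1 i = x.1 (i + 1)
  min : ∀ x, Dense (range fun n : ℤ => (h ^ n) x)

open Classical in
/-- Cubes along orbit segments starting in `Y`; almost all places of `S + Q ℤ` are free. -/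
def Free [TopologicalSpace K] {w : ℕ → ℤ → Option K} {k : ℕ} (e : (Fin k → unitInterval) → K)
    (Q : ℕ) (Y : Set (blockSet w)) (S : Finset ℕ) (δ : ℝ) : Prop :=
  ∃ C₀ : ℝ, ∀ M : ℕ, ∃ (x₀ : ℤ → K) (Fr : Finset ℤ),
    (∀ z : ℤ → Fin k → unitInterval, ∃ x ∈ Y, ∀ i, x.1 i = if i ∈ Fr then e (z i) else x₀ i) ∧
    (((Finset.univ ×ˢ S).filter fun a : Fin M × ℕ =>
      (Q : ℤ) * (a.1 : ℕ) + a.2 ∉ Fr).card : ℝ) ≤ δ * Q * M + C₀

end

end Vale.Agent.P093
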