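import Vale.Agent.P093.Core
import Vale.Agent.P093.Md
import Vale.Agent.P093.Free
import Vale.Agent.P093.Grp

/-! P093 Main (TASK). Choice of the parameters. Helper names start with `mai_`.
`k = 0`: `mdim_le`. Otherwise for `η > 0` choose `t`, `δ`, `Q₀` with `k / (2 (2 t + 1)) < η`, `4 t k δ < η`, `(t + 1) / Q₀ < η`; `G = card S * k / (2 t + 1)` (natural division, `card S * k < (G + 1) (2 t + 1)`), `p = ⌊4 t k δ Q⌋₊ + 1`; `(G t - p) / Q ≥ k ρ / 2 - 3 η` using `ρ ≤ 1`. `ENNReal.le_of_forall_pos_le_add` or `le_of_forall_lt`, `ENNReal.ofReal_div_of_pos`. -/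

open Filter Topology Set

noncomputable section

namespace Vale.Agent.P093

variable {K : Type} [MetricSpace K] [CompactSpace K] {w : ℕ → ℤ → Option K}
  {q : ℕ → ℕ} {h : blockSet w ≃ₜ blockSet w} {k : ℕ}

theorem mai_num {k t G s p Q ρ η δ : ℝ} (hQ : 0 < Q) (hk : 0 ≤ k) (ht : 0 ≤ t) (hη : 0 ≤ η)
    (hρ : ρ ≤ 1) (hs : ρ * Q ≤ s) (hG : s * k < (G + 1) * (2 * t + 1))
    (hp : p ≤ 4 * t * k * δ * Q + 1) (h1 : k ≤ η * t) (h2 : 4 * t * k * δ ≤ η)
    (h3 : t + 1 ≤ η * Q) : k * ρ / 2 - 3 * η ≤ (G * t - p) / Q := by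
  rw [le_div_iff₀ hQ]
  have hu : ρ * Q * k ≤ η * Q * t := by
    have a1 : ρ * Q * k ≤ 1 * Q * k := by gcongr
    have a2 : Q * k ≤ Q * (η * t) := by gcongr
    linarith
  have hu' : ρ * Q * k ≤ (G + 1) * (2 * t + 1) := (mul_le_mul_of_nonneg_right hs hk).trans hG.le
  have hηQ : 0 ≤ η * Q := by positivity
  have key : ρ * Q * k / 2 - η * Q ≤ (G + 1) * t := by
    by_contra hc
    push Not at hc
    have a1 : (G + 1) * t * (2 * t + 1) < (ρ * Q * k / 2 - η * Q) * (2 * t + 1) :=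
      mul_lt_mul_of_pos_right hc (by positivity)
    have a2 : ρ * Q * k * t ≤ (G + 1) * (2 * t + 1) * t := mul_le_mul_of_nonneg_right hu' ht
    have a3 : 0 ≤ η * Q * t := by positivity
    nlinarith
  have a4 : 4 * t * k * δ * Q ≤ η * Q := mul_le_mul_of_nonneg_right h2 hQ.le
  nlinarith

theorem mai_step (H : Pat w q h) [Infinite (blockSet w)] {e : (Fin k → unitInterval) → K}
    (he : Continuous e) (he' : Function.Injective e) (hk : 0 < k) {η : ℝ} (hη : 0 < η) :
    ENNReal.ofReal (k * rho w q / 2 - 3 * η) ≤ rc (cross h) := by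
  have := H.compact
  obtain ⟨t, ht⟩ := exists_nat_ge (k / η)
  obtain ⟨Q₀, hQ₀⟩ := exists_nat_ge (((t : ℝ) + 1) / η)
  have hδ : 0 < η / (4 * t * k + 1) := by positivity
  obtain ⟨Q, Y, S, hQ, hQ0, hY, hS, hρ, hF⟩ := H.exists_free hk he he' hδ Q₀
  obtain ⟨ρ, hM⟩ := H.mark he he' hY hS hF (t := t) (G := S.card * k / (2 * t + 1))
    (p := ⌊4 * t * k * (η / (4 * t * k + 1)) * Q⌋₊ + 1) (Nat.div_mul_le_self _ _)
    (by push_cast; exact Nat.lt_floor_add_one _)
  refine le_trans (ENNReal.ofReal_le_ofReal ?_) (le_rc hM hQ0)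
  rw [Fintype.card_prod, Fintype.card_fin, Fintype.card_fin, Nat.cast_mul]
  have hQ' : (0 : ℝ) < Q := by exact_mod_cast hQ0
  refine mai_num (s := S.card) (δ := η / (4 * t * k + 1)) hQ' (by positivity) (by positivity) hη.le
    H.rho_le_one hρ ?_ ?_ ?_ ?_ ?_
  · have h1 : S.card * k < (S.card * k / (2 * t + 1) + 1) * (2 * t + 1) := by
      rw [mul_comm _ (2 * t + 1)]
      exact Nat.lt_mul_div_succ _ (by omega)
    exact_mod_cast h1
  · push_cast
    have := Nat.floor_le (a := 4 * t * k * (η / (4 * t * k + 1)) * (Q : ℝ)) (by positivity)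
    linarith
  · rw [div_le_iff₀ hη] at ht
    linarith
  · rw [← mul_div_assoc, div_le_iff₀ (by positivity)]
    linarith
  · rw [div_le_iff₀ hη] at hQ₀
    have : (Q₀ : ℝ) ≤ Q := by exact_mod_cast hQ
    nlinarith

theorem Pat.rc_ge (H : Pat w q h) [Infinite (blockSet w)] {e : (Fin k → unitInterval) → K}
    (he : Continuous e) (he' : Function.Injective e) :
    ENNReal.ofReal (k * rho w q / 2) ≤ rc (cross h) := by
  rcases Nat.eq_zero_or_pos k with rfl | hk
  · simp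
  refine ENNReal.le_of_forall_pos_le_add fun ε hε _ => ?_
  have hε' : (0 : ℝ) < ε := hε
  have h1 := mai_step H he he' hk (η := ε / 3) (by positivity)
  calc ENNReal.ofReal (k * rho w q / 2)
      = ENNReal.ofReal ((k * rho w q / 2 - 3 * (ε / 3)) + ε) := by congr 1; ring
    _ ≤ ENNReal.ofReal (k * rho w q / 2 - 3 * (ε / 3)) + ENNReal.ofReal ε := ENNReal.ofReal_add_le
    _ ≤ rc (cross h) + ε := by
      rw [ENNReal.ofReal_coe_nnreal]
      exact add_le_add h1 le_rfl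

theorem Pat.main (H : Pat w q h) [Infinite (blockSet w)]
    (hK : ∀ 𝒰 : Set (Set K), IsCover 𝒰 → leastOrd 𝒰 ≤ k) {e : (Fin k → unitInterval) → K}
    (he : Continuous e) (he' : Function.Injective e) : mdim h / 2 ≤ rc (cross h) := by
  refine le_trans ?_ (H.rc_ge he he')
  rw [ENNReal.ofReal_div_of_pos two_pos, ENNReal.ofReal_ofNat]
  exact ENNReal.div_le_div_right (H.mdim_le hK) 2

end Vale.Agent.P093
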