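import Vale.Agent.P093.ObsA
import Vale.Agent.P093.BUp
import Vale.Agent.P093.Emb

/-! P093 Obs . The obstruction. -/

open Filter Topology Set

noncomputable section

namespace Vale.Agent.P093

variable {X : Type} [TopologicalSpace X] {h : X ≃ₜ X} {q p : ℕ} {L : Type} [Fintype L]
  [DecidableEq L] {Y : Set X} {ρ : L → X → Fin 3 → ℝ}

/-- Real and imaginary part. -/
def obsRI (z : ℂ) : Fin 2 → ℝ := ![z.re, z.im]

theorem obsRI_neg (z : ℂ) : obsRI (-z) = -obsRI z := by
  funext c
  fin_cases c <;> simp [obsRI]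

theorem obsRI_zero {z : ℂ} (h : ∀ c, obsRI z c = 0) : z = 0 := Complex.ext (h 0) (h 1)

theorem obsRI_cont : Continuous obsRI :=
  continuous_pi fun c => by fin_cases c <;> simp only [obsRI] <;> fun_prop

theorem obs_spin_neg (u : Fin 3 → ℝ) (s : Fin 2) : spin (-u) s = -spin u s := by
  fin_cases s
  · simp [spin]
  · simp [spin]
    ring

theorem obs_spin_cont (s : Fin 2) : Continuous fun u => spin u s := by
  fin_cases s <;> simp only [spin] <;> fun_prop

/-- The topological step. -/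
theorem obs_zero {J D I : Type} [Fintype J] [DecidableEq J] [Fintype D]
    {H : (Fin 3 → ℝ) → S2} (hH : ContinuousOn H {u | u ≠ 0}) (hH' : ∀ u, H (-u) = H u)
    (c : I → Option (D × Fin 2) → (J → S2) → ℂ) (hc : ∀ i o, Continuous (c i o)) (a : D → I)
    (b : J → Fin 2 → I) : ∃ (v : Option (D × Fin 2) → ℝ) (u : J → Fin 3 → ℝ), v ≠ 0 ∧
      (∀ j, u j ≠ 0) ∧ (∀ d, ∑ o, v o * c (a d) o (fun j => H (u j)) = 0) ∧
      ∀ j, ∑ s, starRingEnd ℂ (spin (u j) s) * ∑ o, v o * c (b j s) o (fun j => H (u j)) = 0 := by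
  let η : I → (Option (D × Fin 2) → ℝ) → (J → Fin 3 → ℝ) → ℂ := fun i v u =>
    ∑ o, v o * c i o fun j => H (u j)
  have η1 : ∀ i v u, η i (-v) u = -η i v u := fun i v u => by
    simp only [η, Pi.neg_apply, Complex.ofReal_neg, neg_mul, Finset.sum_neg_distrib]
  have η2 : ∀ i v u j, η i v (Function.update u j (-u j)) = η i v u := fun i v u j => by
    have e : (fun j' => H (Function.update u j (-u j) j')) = fun j' => H (u j') := by
      funext j'
      by_cases h : j' = j
      · rw [h, Function.update_self, hH']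
      · rw [Function.update_of_ne h]
    simp only [η, e]
  have ηc : ∀ i, ContinuousOn (fun z : (Option (D × Fin 2) → ℝ) × (J → Fin 3 → ℝ) => η i z.1 z.2)
      {z | ∀ j, z.2 j ≠ 0} := fun i => by
    refine continuousOn_finsetSum _ fun o _ => ContinuousOn.mul (Continuous.continuousOn ?_)
      ((hc i o).comp_continuousOn (continuousOn_pi.2 fun j => hH.comp
        (Continuous.continuousOn ?_) fun z hz => hz j))
    · fun_prop
    · fun_prop
  obtain ⟨v, u, hv, hu, h1, h2⟩ := bu_prod (J := J) (D := D × Fin 2)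
    (fun v u d => obsRI (η (a d.1) v u) d.2)
    (fun v u j => obsRI (∑ s, starRingEnd ℂ (spin (u j) s) * η (b j s) v u))
    (continuousOn_pi.2 fun d => ((continuous_apply d.2).comp obsRI_cont).comp_continuousOn (ηc _))
    (continuousOn_pi.2 fun j => obsRI_cont.comp_continuousOn
      (continuousOn_finsetSum _ fun s _ => ContinuousOn.mul (Continuous.continuousOn
        (Complex.continuous_conj.comp ((obs_spin_cont s).comp (by fun_prop)))) (ηc _)))
    (fun v u => funext fun d => by simp only [η1, obsRI_neg, Pi.neg_apply])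
    (fun v u j => by simp only [η2])
    (fun v u => funext fun j => by
      simp only [η1, mul_neg, Finset.sum_neg_distrib, obsRI_neg, Pi.neg_apply])
    (fun v u j => by
      simp only [η2, Function.update_self, obs_spin_neg, map_neg, neg_mul, Finset.sum_neg_distrib,
        obsRI_neg])
    (fun v u j j' h => by simp only [η2, Function.update_of_ne h])
  exact ⟨v, u, hv, hu, fun d => obsRI_zero fun s => congrFun h1 (d, s),
    fun j => obsRI_zero fun s => congrFun (congrFun h2 j) s⟩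

theorem not_close (hM : Mark h q p Y ρ) (hq : 0 < q) {g : X → ℂ} (g1 : ∀ x ∈ Y, g x = 1)
    (g0 : ∀ x ∉ Y, g x = 0)
    {A B x : Fin p ⊕ L × Fin 2 → Fin p ⊕ L × Fin 2 → Hs X →L[ℂ] Hs X}
    (hA : ∀ i j ξ a, A i j ξ a = g ((h ^ a.1) a.2) * matA p L i j * ξ a)
    (hB : ∀ i j ξ a, B i j ξ a =
      g ((h ^ a.1) a.2) * matB p (fun l => ρ l ((h ^ a.1) a.2)) i j * ξ a)
    (hx : ∀ i j, x i j ∈ cross h) :
    ¬ ∀ i j, ‖∑ k, ∑ l, star (x k i) * B k l * x l j - A i j‖ <
      1 / (Fintype.card (Fin p ⊕ L × Fin 2) + 1) := by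
  intro hcl
  obtain ⟨R, x', hO, hx'⟩ := fp_approx (h := h)
    (x := fun a : (Fin p ⊕ L × Fin 2) × (Fin p ⊕ L × Fin 2) => x a.1 a.2) (fun a => hx _ _)
    (O := {x | ∀ i j, ‖∑ k, ∑ l, star (x (k, i)) * B k l * x (l, j) - A i j‖ <
      1 / (Fintype.card (Fin p ⊕ L × Fin 2) + 1)}) (by
      simp only [ofPred_forall]
      exact isOpen_iInter_of_finite fun i => isOpen_iInter_of_finite fun j =>
        isOpen_lt (by fun_prop) continuous_const) hcl
  obtain ⟨M, Bad, φ, hφ, hφY, hφρ, hcard⟩ :=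
    hM.cube (4 * ((R + 1) * Fintype.card (Fin p ⊕ L × Fin 2)))
  obtain ⟨H, hH, hH', hb⟩ := exists_hopf
  obtain ⟨κ⟩ : Nonempty (Option ((Bad × Fin 2 ⊕ (Fin (R + 1) × Bool) × (Fin p ⊕ L × Fin 2)) ×
      Fin 2) ↪ Fin M × Fin p) := by
    refine Function.Embedding.nonempty_of_card_le ?_
    simp only [Fintype.card_option, Fintype.card_prod, Fintype.card_sum, Fintype.card_fin,
      Fintype.card_coe, Fintype.card_bool] at hcard ⊢
    nlinarith
  obtain ⟨v, u, hv, hu, h1, h2⟩ := obs_zero hH hH'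
    (fun (i : ℤ × (Fin p ⊕ L × Fin 2)) o ω =>
      x' (i.2, .inl (κ o).2) (dl ((q : ℤ) * ((κ o).1 : ℕ), φ ω)) (i.1, φ ω))
    (fun i o => ((hx' _).cont _ _).comp hφ)
    (Sum.elim (fun b => ((q : ℤ) * (b.1.1.1 : ℕ), .inr (b.1.1.2, b.2)))
      fun b => (if b.1.2 then (q : ℤ) * M + (b.1.1 : ℕ) else -((b.1.1 : ℕ) : ℤ), b.2))
    fun γ s => ((q : ℤ) * (γ.1 : ℕ), .inr (γ.2, s))
  obtain ⟨l, k, ⟨j, rfl⟩, l1, l2, hne⟩ := exists_coord hM.mk' hq g1 g0
    (fun x => matB p fun l => ρ l x) hA hB (x := fun i j => x' (i, j)) (fun i j => hx' _) hO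
    (hφY fun γ => H (u γ)) (v := Function.extend κ (fun o => (v o : ℂ)) 0) (fun h0 => hv
      (funext fun o => by
        have h3 := congrFun h0 (κ o)
        rw [κ.injective.extend_apply] at h3
        exact Complex.ofReal_eq_zero.1 h3))
  have hsum : ∀ t : Fin M × Fin p → ℂ,
      ∑ a, Function.extend κ (fun o => (v o : ℂ)) 0 a * t a = ∑ o, v o * t (κ o) := fun t =>
    (Fintype.sum_of_injective κ κ.injective _ _ (fun a ha => by
      rw [Function.extend_apply' _ _ _ ha, Pi.zero_apply, zero_mul])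
      fun o => by rw [κ.injective.extend_apply]).symm
  simp only [hsum] at hne
  refine hne ?_
  have q0 : (0 : ℤ) < q := by exact_mod_cast hq
  by_cases j0 : j < 0
  · refine Finset.sum_eq_zero fun k' _ => ?_
    have h3 := h1 (.inr ((⟨(-(q * j)).toNat, by omega⟩, false), k'))
    have h4 : (0 : ℤ) ≤ -(q * j) := by nlinarith
    simp only [Sum.elim_inr, Bool.false_eq_true, if_false, Int.toNat_of_nonneg h4, neg_neg] at h3
    rw [h3, mul_zero]
  by_cases jM : (M : ℤ) ≤ j
  · refine Finset.sum_eq_zero fun k' _ => ?_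
    have h3 := h1 (.inr ((⟨(q * j - q * M : ℤ).toNat, by omega⟩, true), k'))
    have h4 : (0 : ℤ) ≤ q * j - q * M := by nlinarith
    simp only [Sum.elim_inr, if_true, Int.toNat_of_nonneg h4, add_sub_cancel] at h3
    rw [h3, mul_zero]
  obtain ⟨j, rfl⟩ : ∃ j' : Fin M, j = (j' : ℕ) := ⟨⟨j.toNat, by omega⟩, by simp; omega⟩
  rcases k with k | ⟨i, s⟩
  · exact Finset.sum_eq_zero fun k' _ => by rcases k' with k' | k' <;> simp [matB]
  rw [Fintype.sum_sum_type, Fintype.sum_prod_type, Finset.sum_eq_zero fun k' _ => by simp [matB],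
    zero_add, Finset.sum_eq_single i (fun i' _ hi => Finset.sum_eq_zero fun s' _ => by
      simp [matB, hi.symm]) (by simp)]
  simp only [matB, if_true]
  by_cases hbad : (j, i) ∈ Bad
  · refine Finset.sum_eq_zero fun s' _ => ?_
    have h3 := h1 (.inl (⟨_, hbad⟩, s'))
    simp only [Sum.elim_inl] at h3
    rw [h3, mul_zero]
  · have h0 : ((∑ c, u (j, i) c ^ 2 : ℝ) : ℂ) ≠ 0 := by
      obtain ⟨c, hc⟩ := Function.ne_iff.1 (hu (j, i))
      exact Complex.ofReal_ne_zero.2 (Finset.sum_pos' (fun _ _ => sq_nonneg _)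
        ⟨c, Finset.mem_univ _, sq_pos_of_ne_zero hc⟩).ne'
    refine (mul_eq_zero.1 ?_).resolve_left h0
    have h3 := hφρ (fun γ => H (u γ)) (j, i) hbad
    simp only at h3
    simp only [h3, Finset.mul_sum _ (fun s' : Fin 2 => _), ← mul_assoc, hb _ (hu (j, i))]
    simp only [mul_assoc, ← Finset.mul_sum]
    rw [h2 (j, i), mul_zero]

end Vale.Agent.P093
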